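import Vale.Agent.Lib.P172.Main

namespace Vale.Agent.Results.P172.VirtuallyCyclic

open Vale.Agent.Lib.P172

/-- Every virtually cyclic group acts geometrically on a proper CAT(-1) space (comparison
with the hyperbolic plane) and on a proper CAT(0) space (comparison with the Euclidean
plane). -/
theorem result (G : Type*) [Group G] (h : ∃ H : Subgroup G, H.FiniteIndex ∧ IsCyclic H) :
    ActsGeometricallyOnCAT UpperHalfPlane G ∧
      ActsGeometricallyOnCAT (EuclideanSpace ℝ (Fin 2)) G :=
  ⟨acts_of_virtually_cyclic UpperHalfPlane G h,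
    acts_of_virtually_cyclic (EuclideanSpace ℝ (Fin 2)) G h⟩

end Vale.Agent.Results.P172.VirtuallyCyclic
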